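import Vale.Agent.P054.T2.H494.RJet

/-!
# P054 / T2, [COMAP] for every vertical dimension: the trace of the hat-leaf germ on the variables of
the leaf is the leaf germ.
-/

set_option autoImplicit false
set_option linter.unusedSectionVars false

open MvPolynomial

namespace Vale.Agent.P054.T2.H494

open Vale.Agent.P054.T2.H930

variable {k : Type*} [Field k] {α β : Type*} [Fintype α] [DecidableEq α] [Fintype β] [DecidableEq β]

/-- an independent family of vectors of `k^β` is completed to a basis -/
theorem exists_complete {m : ℕ} (G : Fin m → β → k) (hG : LinearIndependent k G) :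
    ∃ v : ℕ, v + m = Fintype.card β ∧ ∃ a : Fin v → β → k,
      LinearIndependent k (Sum.elim G a) := by
  classical
  obtain ⟨v, hv, b, h1, h2⟩ := exists_basis G hG
  refine ⟨v, hv, fun l z => b.repr (Pi.single z 1) (Sum.inl l), ?_⟩
  have ha : ∀ (l : Fin v) (w : β → k),
      ∑ z, b.repr (Pi.single z 1) (Sum.inl l) * w z = b.repr w (Sum.inl l) := by
    intro l w
    have hw : w = ∑ z, w z • (Pi.single z 1 : β → k) := by
      funext y
      simp [Finset.sum_apply, Pi.single_apply]
    conv_rhs => rw [hw]
    rw [map_sum, Finsupp.finsetSum_apply]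
    refine Finset.sum_congr rfl (fun z _ => ?_)
    rw [map_smul, Finsupp.smul_apply, smul_eq_mul, mul_comm]
  rw [Fintype.linearIndependent_iff]
  intro g hg
  rw [Fintype.sum_sum_type] at hg
  simp only [Sum.elim_inl, Sum.elim_inr] at hg
  have hpair : ∀ w : β → k, ∑ i, g (Sum.inl i) * (∑ z, G i z * w z)
      + ∑ l, g (Sum.inr l) * b.repr w (Sum.inl l) = 0 := by
    intro w
    have h3 : ∑ z, ((∑ i, g (Sum.inl i) • G i
        + ∑ l, g (Sum.inr l) • fun z => b.repr (Pi.single z 1) (Sum.inl l)) z) * w z = 0 := by
      rw [hg]; simp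
    have h4 : ∑ z, ((∑ i, g (Sum.inl i) • G i
        + ∑ l, g (Sum.inr l) • fun z => b.repr (Pi.single z 1) (Sum.inl l)) z) * w z
        = ∑ i, g (Sum.inl i) * (∑ z, G i z * w z)
          + ∑ l, g (Sum.inr l) * ∑ z, b.repr (Pi.single z 1) (Sum.inl l) * w z := by
      simp only [Pi.add_apply, Finset.sum_apply, Pi.smul_apply, smul_eq_mul, add_mul,
        Finset.sum_add_distrib, Finset.sum_mul, Finset.mul_sum, mul_assoc]
      rw [Finset.sum_comm]
      congr 1
      rw [Finset.sum_comm]
    rw [h4] at h3
    simpa only [ha] using h3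
  intro i
  rcases i with i | l
  · have h5 := hpair (b (Sum.inr i))
    have h6 : ∑ l, g (Sum.inr l) * b.repr (b (Sum.inr i)) (Sum.inl l) = 0 := by
      refine Finset.sum_eq_zero (fun l _ => ?_)
      rw [b.repr_self]
      simp
    rw [h6, add_zero] at h5
    rw [Finset.sum_eq_single i] at h5
    · rw [h2] at h5
      simpa using h5
    · intro i' _ hi'
      rw [h2, if_neg hi', mul_zero]
    · intro h; exact absurd (Finset.mem_univ i) h
  · have h5 := hpair (b (Sum.inl l))
    have h6 : ∑ i, g (Sum.inl i) * (∑ z, G i z * b (Sum.inl l) z) = 0 := by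
      refine Finset.sum_eq_zero (fun i _ => ?_)
      rw [h1, mul_zero]
    rw [h6, zero_add] at h5
    rw [Finset.sum_eq_single l] at h5
    · rw [b.repr_self] at h5
      simpa using h5
    · intro l' _ hl'
      rw [b.repr_self]
      simp [hl'.symm]
    · intro h; exact absurd (Finset.mem_univ l) h

/-- a square independent family of linear forms has trivial kernel -/
theorem eq_zero_of_square {ι : Type*} [Fintype ι] (G : ι → β → k) (hG : LinearIndependent k G)
    (hc : Fintype.card ι = Fintype.card β) (w : β → k) (hw : ∀ i, ∑ z, G i z * w z = 0) : w = 0 := by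
  classical
  have hspan : Submodule.span k (Set.range G) = ⊤ :=
    hG.span_eq_top_of_card_eq_finrank' (by rw [hc, Module.finrank_fintype_fun_eq_card])
  have h1 : ∀ g : β → k, ∑ z, g z * w z = 0 := by
    intro g
    have hg : g ∈ Submodule.span k (Set.range G) := by rw [hspan]; trivial
    refine Submodule.span_induction (p := fun g _ => ∑ z, g z * w z = 0) ?_ ?_ ?_ ?_ hg
    · rintro _ ⟨i, rfl⟩; exact hw i
    · simp
    · intro x y _ _ hx hy
      simp only [Pi.add_apply, add_mul, Finset.sum_add_distrib, hx, hy, add_zero]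
    · intro c x _ hx
      simp only [Pi.smul_apply, smul_eq_mul, mul_assoc, ← Finset.mul_sum, hx, mul_zero]
  funext z
  have := h1 (Pi.single z 1)
  simpa [Pi.single_apply] using this

section

variable {c m : ℕ} (p : α ⊕ β → k) (f : Fin c → MvPolynomial α k)
  (F : Fin (c + m) → MvPolynomial (α ⊕ β) k)

theorem grad_rename_inl (g : MvPolynomial α k) (x : α) :
    grad p (rename Sum.inl g) (Sum.inl x) = grad (fun t => p (Sum.inl t)) g x := by
  have h : pderiv (Sum.inl x) (rename (Sum.inl : α → α ⊕ β) g)
      = rename (Sum.inl : α → α ⊕ β) (pderiv x g) :=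
    pderiv_rename Sum.inl_injective x g
  simp only [grad]
  rw [h, eval_rename]
  rfl

theorem grad_rename_inr_zero (g : MvPolynomial α k) (z : β) :
    grad p (rename Sum.inl g) (Sum.inr z) = 0 := by
  simp only [grad]
  have h : pderiv (Sum.inr z) (rename (Sum.inl : α → α ⊕ β) g) = 0 := by
    apply pderiv_eq_zero_of_notMem_vars
    intro hmem
    have h2 := (vars_rename (Sum.inl : α → α ⊕ β) g) hmem
    rw [Finset.mem_image] at h2
    obtain ⟨y, -, hy⟩ := h2
    exact absurd hy (by simp)
  rw [h, map_zero]

/-- independence of the whole system from the independence of the two blocks -/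
theorem hind_of_blocks (hleft : ∀ i, F (Fin.castAdd m i) = rename Sum.inl (f i))
    (hindf : LinearIndependent k (fun i => grad (fun t => p (Sum.inl t)) (f i)))
    (hindr : LinearIndependent k (fun (j : Fin m) (z : β) =>
      eval p (pderiv (Sum.inr z) (F (Fin.natAdd c j))))) :
    LinearIndependent k (fun i => grad p (F i)) := by
  classical
  rw [Fintype.linearIndependent_iff] at hindf hindr ⊢
  intro g hg
  have hr : ∀ j : Fin m, g (Fin.natAdd c j) = 0 := by
    refine hindr (fun j => g (Fin.natAdd c j)) ?_
    funext z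
    have h1 := congrFun hg (Sum.inr z)
    rw [Finset.sum_apply, Fin.sum_univ_add] at h1
    have h2 : ∑ i : Fin c, (g (Fin.castAdd m i) • grad p (F (Fin.castAdd m i))) (Sum.inr z) = 0 := by
      refine Finset.sum_eq_zero (fun i _ => ?_)
      rw [Pi.smul_apply, hleft, grad_rename_inr_zero, smul_zero]
    rw [h2, zero_add] at h1
    rw [Finset.sum_apply]
    simpa [grad] using h1
  have hl : ∀ i : Fin c, g (Fin.castAdd m i) = 0 := by
    refine hindf (fun i => g (Fin.castAdd m i)) ?_
    funext x
    have h1 := congrFun hg (Sum.inl x)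
    rw [Finset.sum_apply, Fin.sum_univ_add] at h1
    have h2 : ∑ i : Fin m, (g (Fin.natAdd c i) • grad p (F (Fin.natAdd c i))) (Sum.inl x) = 0 := by
      refine Finset.sum_eq_zero (fun i _ => ?_)
      rw [Pi.smul_apply, hr i, zero_smul]
    rw [h2, add_zero] at h1
    rw [Finset.sum_apply]
    have h3 : ∀ i : Fin c, (g (Fin.castAdd m i) • grad p (F (Fin.castAdd m i))) (Sum.inl x)
        = (g (Fin.castAdd m i) • grad (fun t => p (Sum.inl t)) (f i)) x := by
      intro i
      rw [Pi.smul_apply, Pi.smul_apply, hleft, grad_rename_inl]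
    rw [Finset.sum_congr rfl (fun i _ => h3 i)] at h1
    exact h1
  intro i
  refine Fin.addCases (motive := fun i => g i = 0) hl hr i

/-- **[COMAP]**, jets: for every vertical dimension the trace of `J_n` of the hat-leaf system on the
leaf variables is `J_n` of the leaf system -/
theorem comap_inl_J (hleft : ∀ i, F (Fin.castAdd m i) = rename Sum.inl (f i))
    (hzero : ∀ i, eval p (F i) = 0)
    (hindf : LinearIndependent k (fun i => grad (fun t => p (Sum.inl t)) (f i)))
    (hindr : LinearIndependent k (fun (j : Fin m) (z : β) =>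
      eval p (pderiv (Sum.inr z) (F (Fin.natAdd c j)))))
    (n : ℕ) :
    (J p F n).comap (rename Sum.inl : MvPolynomial α k →ₐ[k] MvPolynomial (α ⊕ β) k)
      = J (fun t => p (Sum.inl t)) f n := by
  classical
  have hzf : ∀ i, eval (fun t => p (Sum.inl t)) (f i) = 0 := by
    intro i
    have h1 := hzero (Fin.castAdd m i)
    rw [hleft, eval_rename] at h1
    exact h1
  obtain ⟨v, hv, a, ha⟩ := exists_complete _ hindr
  -- the completed system
  let L : Fin v → MvPolynomial (α ⊕ β) k :=
    fun l => ∑ z, C (a l z) * (X (Sum.inr z) - C (p (Sum.inr z)))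
  let F' : Fin (c + (m + v)) → MvPolynomial (α ⊕ β) k :=
    Fin.append (fun i => rename Sum.inl (f i))
      (Fin.append (fun j => F (Fin.natAdd c j)) L)
  have hF'l : ∀ i, F' (Fin.castAdd (m + v) i) = rename Sum.inl (f i) := by
    intro i; exact Fin.append_left _ _ i
  have hF'r : ∀ j, F' (Fin.natAdd c j) = Fin.append (fun j => F (Fin.natAdd c j)) L j := by
    intro j; exact Fin.append_right _ _ j
  have hLr : ∀ l z, eval p (pderiv (Sum.inr z) (L l)) = a l z := by
    intro l z
    simp only [L, map_sum, pderiv_mul, pderiv_C, zero_mul, zero_add, map_sub, pderiv_X,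
      sub_zero, map_mul, eval_C]
    rw [Finset.sum_eq_single z]
    · simp
    · intro y _ hy
      have : (Sum.inr y : α ⊕ β) ≠ Sum.inr z := fun h => hy (Sum.inr_injective h)
      simp [this.symm]
    · intro h; exact absurd (Finset.mem_univ z) h
  have hind1 : LinearIndependent k (fun (j : Fin (m + v)) (z : β) =>
      eval p (pderiv (Sum.inr z) (F' (Fin.natAdd c j)))) := by
    have h1 : (fun (j : Fin (m + v)) (z : β) =>
        eval p (pderiv (Sum.inr z) (F' (Fin.natAdd c j))))
        = (Sum.elim (fun (j : Fin m) (z : β) => eval p (pderiv (Sum.inr z) (F (Fin.natAdd c j)))) a)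
          ∘ (finSumFinEquiv (m := m) (n := v)).symm := by
      funext j z
      rw [hF'r]
      obtain ⟨x, rfl⟩ := (finSumFinEquiv (m := m) (n := v)).surjective j
      rw [Function.comp_apply, Equiv.symm_apply_apply]
      rcases x with i | i
      · rw [finSumFinEquiv_apply_left, Fin.append_left, Sum.elim_inl]
      · rw [finSumFinEquiv_apply_right, Fin.append_right, Sum.elim_inr, hLr]
    rw [h1]
    exact ha.comp _ (Equiv.injective _)
  have hzero' : ∀ i, eval p (F' i) = 0 := by
    intro i
    refine Fin.addCases (motive := fun i => eval p (F' i) = 0) ?_ ?_ i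
    · intro i
      rw [hF'l, ← hleft]; exact hzero _
    · intro j
      rw [hF'r]
      refine Fin.addCases (motive := fun j => eval p
        (Fin.append (fun j => F (Fin.natAdd c j)) L j) = 0) ?_ ?_ j
      · intro i; rw [Fin.append_left]; exact hzero _
      · intro i; rw [Fin.append_right]; simp [L]
  have hc1 : Fintype.card β = m + v := by omega
  have hcn : c ≤ Fintype.card α := by
    have := hindf.fintype_card_le_finrank
    rw [Fintype.card_fin, Module.finrank_fintype_fun_eq_card] at this
    exact this
  have key := comap_J (σ := α ⊕ β) Sum.inl p f F' (fun i => ⟨Fin.castAdd (m + v) i, (hF'l i).symm⟩)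
    hzf hindf hzero' (hind_of_blocks p f F' hF'l hindf hind1)
    (by rw [Fintype.card_sum, hc1]; omega)
    (by
      intro w hw hw0
      have hr : (fun z => w (Sum.inr z)) = 0 := by
        refine eq_zero_of_square _ hind1 (by rw [Fintype.card_fin, hc1]) _ ?_
        intro j
        have h1 := hw (Fin.natAdd c j)
        rw [Fintype.sum_sum_type] at h1
        have h2 : ∑ x : α, grad p (F' (Fin.natAdd c j)) (Sum.inl x) * w (Sum.inl x) = 0 :=
          Finset.sum_eq_zero (fun x _ => by rw [hw0 x, mul_zero])
        rw [h2, zero_add] at h1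
        exact h1
      funext x
      rcases x with x | z
      · exact hw0 x
      · exact congrFun hr z) n
  refine le_antisymm ?_ (J_le_comap (σ := α ⊕ β) Sum.inl p f F
    (fun i => ⟨Fin.castAdd m i, (hleft i).symm⟩) n)
  rw [← key]
  refine Ideal.comap_mono (J_mono p F F' ?_ n)
  rintro _ ⟨i, rfl⟩
  refine Fin.addCases (motive := fun i => F i ∈ Set.range F') ?_ ?_ i
  · intro i
    exact ⟨Fin.castAdd (m + v) i, by rw [hF'l, hleft]⟩
  · intro j
    exact ⟨Fin.natAdd c (Fin.castAdd v j), by rw [hF'r, Fin.append_left]⟩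

/-- **[COMAP]** for every vertical dimension -/
theorem comap_inl_germ (hleft : ∀ i, F (Fin.castAdd m i) = rename Sum.inl (f i))
    (hzero : ∀ i, eval p (F i) = 0)
    (hindf : LinearIndependent k (fun i => grad (fun t => p (Sum.inl t)) (f i)))
    (hindr : LinearIndependent k (fun (j : Fin m) (z : β) =>
      eval p (pderiv (Sum.inr z) (F (Fin.natAdd c j))))) :
    (germ p F).comap (rename Sum.inl : MvPolynomial α k →ₐ[k] MvPolynomial (α ⊕ β) k)
      = germ (fun t => p (Sum.inl t)) f := by
  unfold germ
  ext G
  rw [Ideal.mem_comap, Ideal.mem_iInf, Ideal.mem_iInf]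
  refine forall_congr' (fun n => ?_)
  rw [← comap_inl_J p f F hleft hzero hindf hindr n]
  rfl

end

end Vale.Agent.P054.T2.H494
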