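import Vale.Agent.P054.T2.H930.Jets

/-!
# P054 / T2, [C2]: jets of a germ through a block of variables, and the restriction of a
hat-leaf germ to the variables of the leaf.
-/

set_option autoImplicit false
set_option linter.unusedSectionVars false

open MvPolynomial

namespace Vale.Agent.P054.T2.H494

open Vale.Agent.P054.T2.H930

variable {k : Type*} [Field k] {σ : Type*} [Fintype σ] [DecidableEq σ]

/-- duality: if the common kernel of the `G i` injects into the coordinates `j t` then every linear
form is a combination of the `G i` and of these coordinates -/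
theorem exists_comb {ι τ : Type*} [Fintype ι] [Fintype τ] (G : ι → σ → k) (j : τ → σ)
    (hinj : ∀ v : σ → k, (∀ i, ∑ x, G i x * v x = 0) → (∀ t, v (j t) = 0) → v = 0)
    (l : σ → k) :
    ∃ (a : ι → k) (b : τ → k), l = ∑ i, a i • G i + ∑ t, b t • (Pi.single (j t) 1 : σ → k) := by
  classical
  have key : Submodule.span k (Set.range (Sum.elim G (fun t => (Pi.single (j t) 1 : σ → k)))) = ⊤ := by
    by_contra hne
    obtain ⟨φ, hφ, hle⟩ := Submodule.exists_le_ker_of_lt_top _ (lt_top_iff_ne_top.2 hne)
    apply hφ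
    have hv : (fun x => φ (Pi.single x 1)) = (0 : σ → k) := by
      refine hinj _ ?_ ?_
      · intro i
        have h1 : φ (G i) = 0 := hle (Submodule.subset_span ⟨Sum.inl i, rfl⟩)
        have h2 : G i = ∑ x, G i x • (Pi.single x 1 : σ → k) := by
          funext y
          simp [Finset.sum_apply, Pi.single_apply]
        rw [h2, map_sum] at h1
        simpa [map_smul] using h1
      · intro t
        exact hle (Submodule.subset_span ⟨Sum.inr t, rfl⟩)
    apply LinearMap.ext
    intro w
    have h2 : w = ∑ x, w x • (Pi.single x 1 : σ → k) := by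
      funext y
      simp [Finset.sum_apply, Pi.single_apply]
    rw [h2, map_sum]
    simp only [map_smul, LinearMap.zero_apply]
    refine Finset.sum_eq_zero (fun x _ => ?_)
    rw [show φ (Pi.single x 1) = 0 from congrFun hv x, smul_zero]
  have hl : l ∈ Submodule.span k (Set.range (Sum.elim G (fun t => (Pi.single (j t) 1 : σ → k)))) := by
    rw [key]; trivial
  obtain ⟨c, hc⟩ := (Submodule.mem_span_range_iff_exists_fun k).1 hl
  refine ⟨fun i => c (Sum.inl i), fun t => c (Sum.inr t), ?_⟩
  rw [← hc, Fintype.sum_sum_type]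
  rfl

section jets

variable {c : ℕ} {p : σ → k} {f : Fin c → MvPolynomial σ k} {e : ℕ}
  {ζ ξ : Fin e → MvPolynomial σ k}

theorem aeval_monomial_mem (hξ : ∀ l, ξ l ∈ J p f 1) (d : Fin e →₀ ℕ) :
    aeval ξ (monomial d (1 : k)) ∈ J p f d.degree := by
  induction d using Finsupp.induction_linear with
  | zero => simp [Finsupp.degree, J_zero]
  | add d d' h h' =>
    have : (monomial (d + d') (1 : k)) = monomial d 1 * monomial d' 1 := by
      rw [monomial_mul, one_mul]
    rw [this, map_mul, map_add]
    exact J_mul_mem h h'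
  | single l n =>
    have h1 : (monomial (Finsupp.single l n) (1 : k)) = X l ^ n := by
      rw [X_pow_eq_monomial]
    rw [h1, map_pow, aeval_X, Finsupp.degree_single]
    induction n with
    | zero => rw [J_zero]; trivial
    | succ n ih =>
      rw [pow_succ]
      exact J_mul_mem (ih (by rw [X_pow_eq_monomial])) (hξ l)

theorem aeval_monomial_sub_mem (hζ : ∀ l, ζ l ∈ J p f 1) (hξ : ∀ l, ξ l ∈ J p f 1)
    (h2 : ∀ l, ζ l - ξ l ∈ J p f 2) (d : Fin e →₀ ℕ) :
    aeval ζ (monomial d (1 : k)) - aeval ξ (monomial d (1 : k)) ∈ J p f (d.degree + 1) := by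
  induction d using Finsupp.induction_linear with
  | zero => simp
  | add d d' h h' =>
    have : (monomial (d + d') (1 : k)) = monomial d 1 * monomial d' 1 := by
      rw [monomial_mul, one_mul]
    rw [this, map_mul, map_mul, map_add]
    have h3 : aeval ζ (monomial d (1 : k)) * aeval ζ (monomial d' (1 : k))
        - aeval ξ (monomial d (1 : k)) * aeval ξ (monomial d' (1 : k))
        = aeval ζ (monomial d (1 : k)) * (aeval ζ (monomial d' (1 : k)) - aeval ξ (monomial d' (1 : k)))
          + (aeval ζ (monomial d (1 : k)) - aeval ξ (monomial d (1 : k)))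
            * aeval ξ (monomial d' (1 : k)) := by ring
    rw [h3]
    refine Ideal.add_mem _ ?_ ?_
    · have := J_mul_mem (aeval_monomial_mem hζ d) h'
      rwa [← add_assoc] at this
    · have := J_mul_mem h (aeval_monomial_mem hξ d')
      rwa [add_right_comm] at this
  | single l n =>
    have h1 : (monomial (Finsupp.single l n) (1 : k)) = X l ^ n := by
      rw [X_pow_eq_monomial]
    rw [h1, map_pow, map_pow, aeval_X, aeval_X, Finsupp.degree_single]
    have hp : ∀ m, ξ l ^ m ∈ J p f m := by
      intro m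
      induction m with
      | zero => rw [J_zero]; trivial
      | succ m ih => rw [pow_succ]; exact J_mul_mem ih (hξ l)
    clear h1
    induction n with
    | zero => simp
    | succ n ih =>
      have h3 : ζ l ^ (n + 1) - ξ l ^ (n + 1)
          = (ζ l ^ n - ξ l ^ n) * ζ l + ξ l ^ n * (ζ l - ξ l) := by ring
      rw [h3]
      refine Ideal.add_mem _ ?_ ?_
      · exact J_mul_mem ih (hζ l)
      · have h5 : ξ l ^ n * (ζ l - ξ l) ∈ J p f (n + 2) := J_mul_mem (hp n) (h2 l)
        exact h5

theorem aeval_mem_of_degree (hξ : ∀ l, ξ l ∈ J p f 1) {m : ℕ} (A : MvPolynomial (Fin e) k)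
    (hA : ∀ d ∈ A.support, m ≤ d.degree) : aeval ξ A ∈ J p f m := by
  rw [A.as_sum, map_sum]
  refine Ideal.sum_mem _ (fun d hd => ?_)
  have h1 : monomial d (coeff d A) = C (coeff d A) * monomial d 1 := by
    rw [C_mul_monomial, mul_one]
  rw [h1, map_mul]
  exact Ideal.mul_mem_left _ _ (J_anti p f (hA d hd) (aeval_monomial_mem hξ d))

theorem aeval_sub_mem_of_degree (hζ : ∀ l, ζ l ∈ J p f 1) (hξ : ∀ l, ξ l ∈ J p f 1)
    (h2 : ∀ l, ζ l - ξ l ∈ J p f 2) {m : ℕ} (A : MvPolynomial (Fin e) k)
    (hA : ∀ d ∈ A.support, m ≤ d.degree) : aeval ζ A - aeval ξ A ∈ J p f (m + 1) := by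
  rw [A.as_sum, map_sum, map_sum, ← Finset.sum_sub_distrib]
  refine Ideal.sum_mem _ (fun d hd => ?_)
  have h1 : monomial d (coeff d A) = C (coeff d A) * monomial d 1 := by
    rw [C_mul_monomial, mul_one]
  rw [h1, map_mul, map_mul]
  have h3 : aeval ζ (C (coeff d A)) * aeval ζ (monomial d (1 : k))
      - aeval ξ (C (coeff d A)) * aeval ξ (monomial d (1 : k))
      = C (coeff d A) * (aeval ζ (monomial d (1 : k)) - aeval ξ (monomial d (1 : k))) := by
    rw [algHom_C, algHom_C, MvPolynomial.algebraMap_eq]; ring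
  rw [h3]
  exact Ideal.mul_mem_left _ _
    (J_anti p f (Nat.succ_le_succ (hA d hd)) (aeval_monomial_sub_mem hζ hξ h2 d))

/-- a family of forms which agrees to first order with local coordinates has independent jets -/
theorem jets_indep (hζ : ∀ l, ζ l ∈ J p f 1) (hξ : ∀ l, ξ l ∈ J p f 1)
    (h2 : ∀ l, ζ l - ξ l ∈ J p f 2)
    (h3 : ∀ n (A : MvPolynomial (Fin e) k), (∀ d ∈ A.support, d.degree < n) →
          aeval ζ A ∈ J p f n → A = 0)
    (n : ℕ) (A : MvPolynomial (Fin e) k) (hA : ∀ d ∈ A.support, d.degree < n)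
    (hAJ : aeval ξ A ∈ J p f n) : A = 0 := by
  have key : ∀ m, m ≤ n → ∀ d ∈ A.support, m ≤ d.degree := by
    intro m
    induction m with
    | zero => intro _ d _; exact Nat.zero_le _
    | succ m ih =>
      intro hm d hd
      have ih' := ih (by omega)
      rcases (ih' d hd).lt_or_eq with h | h
      · exact h
      exfalso
      set H : MvPolynomial (Fin e) k := homogeneousComponent m A with hH
      have hcH : ∀ d, coeff d H = if d.degree = m then coeff d A else 0 := by
        intro d
        rw [hH, coeff_homogeneousComponent]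
      have hHs : ∀ d ∈ H.support, d.degree = m := by
        intro d hd
        rw [mem_support_iff, hcH] at hd
        by_contra hne
        rw [if_neg hne] at hd
        exact hd rfl
      have hR : ∀ d ∈ (A - H).support, m + 1 ≤ d.degree := by
        intro d hd
        rw [mem_support_iff, coeff_sub, hcH] at hd
        by_cases hdm : d.degree = m
        · rw [if_pos hdm, sub_self] at hd; exact absurd rfl hd
        · rw [if_neg hdm, sub_zero] at hd
          have := ih' d (mem_support_iff.2 hd)
          omega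
      have h4 : aeval ξ H ∈ J p f (m + 1) := by
        have h5 : aeval ξ H = aeval ξ A - aeval ξ (A - H) := by rw [map_sub]; ring
        rw [h5]
        exact Ideal.sub_mem _ (J_anti p f hm hAJ) (aeval_mem_of_degree hξ _ hR)
      have h6 : aeval ζ H ∈ J p f (m + 1) := by
        have h7 := aeval_sub_mem_of_degree hζ hξ h2 H (fun d hd => (hHs d hd).ge)
        have h8 : aeval ζ H = (aeval ζ H - aeval ξ H) + aeval ξ H := by ring
        rw [h8]
        exact Ideal.add_mem _ h7 h4
      have h9 : H = 0 := h3 (m + 1) H (fun d hd => by rw [hHs d hd]; omega) h6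
      have h10 := hcH d
      rw [h9, coeff_zero, if_pos h.symm] at h10
      exact (mem_support_iff.1 hd) h10.symm
  ext d
  by_cases hd : d ∈ A.support
  · exact absurd (hA d hd) (not_lt.2 (key n le_rfl d hd))
  · rw [notMem_support_iff.1 hd, coeff_zero]

end jets

/-- **[RJET]** if the tangent space of the germ injects into the block of variables `j : τ → σ`
then the variables of this block give all jets of the germ -/
theorem rjet {c : ℕ} {τ : Type*} [Fintype τ] [DecidableEq τ] (j : τ → σ) (p : σ → k)
    (f : Fin c → MvPolynomial σ k) (hf : ∀ i, eval p (f i) = 0)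
    (hind : LinearIndependent k (fun i => grad p (f i)))
    (hinj : ∀ v : σ → k, (∀ i, ∑ x, grad p (f i) x * v x = 0) → (∀ t, v (j t) = 0) → v = 0)
    (n : ℕ) :
    (n + (Fintype.card σ - c)).choose (Fintype.card σ - c) ≤
      Module.finrank k (MvPolynomial τ k ⧸
        (J p f (n + 1)).comap (rename j : MvPolynomial τ k →ₐ[k] MvPolynomial σ k)) := by
  classical
  obtain ⟨e, he, a, ζ, hζ, -, h3⟩ := exists_jets p f hf hind
  have hec : Fintype.card σ - c = e := by omega
  rw [hec, ← finrank_restrictTotalDegree k e n]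
  choose α b hab using fun l => exists_comb (fun i => grad p (f i)) j hinj (a l)
  let ξ' : Fin e → MvPolynomial τ k := fun l => ∑ t, C (b l t) * (X t - C (p (j t)))
  let ξ : Fin e → MvPolynomial σ k := fun l => rename j (ξ' l)
  have hξ : ∀ l, ξ l = ∑ t, C (b l t) * (X (j t) - C (p (j t))) := by
    intro l
    simp only [ξ, ξ', map_sum, map_mul, map_sub, rename_C, rename_X]
  have hξ1 : ∀ l, ξ l ∈ J p f 1 := by
    intro l
    rw [J_one p f hf, mem_mx, hξ]
    simp
  have hζ1 : ∀ l, ζ l ∈ J p f 1 := by
    intro l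
    rw [J_one p f hf, mem_mx, hζ]
    simp
  have hgζ : ∀ l, grad p (ζ l) = a l := by
    intro l
    funext x
    simp only [grad, hζ, map_sum, pderiv_mul, pderiv_C, zero_mul, zero_add, map_sub, pderiv_X,
      sub_zero, map_mul, eval_C]
    simp [Pi.single_apply]
  have hgξ : ∀ l, grad p (ξ l) = ∑ t, b l t • (Pi.single (j t) 1 : σ → k) := by
    intro l
    funext x
    simp only [grad, hξ, map_sum, pderiv_mul, pderiv_C, zero_mul, zero_add, map_sub, pderiv_X,
      sub_zero, map_mul, eval_C, Finset.sum_apply, Pi.smul_apply, smul_eq_mul]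
    refine Finset.sum_congr rfl (fun t _ => ?_)
    by_cases hx : j t = x
    · subst hx; simp
    · simp [hx, Ne.symm hx]
  have h2 : ∀ l, ζ l - ξ l ∈ J p f 2 := by
    intro l
    rw [mem_J_two_iff hf]
    refine ⟨?_, ?_⟩
    · have h4 := hζ1 l
      have h5 := hξ1 l
      rw [J_one p f hf, mem_mx] at h4 h5
      rw [map_sub, h4, h5, sub_zero]
    · have h6 : grad p (ζ l - ξ l) = ∑ i, α l i • grad p (f i) := by
        have h7 : grad p (ζ l - ξ l) = grad p (ζ l) - grad p (ξ l) := by
          funext x; simp [grad]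
        rw [h7, hgζ, hgξ]
        conv_lhs => rw [hab l]
        rw [add_sub_cancel_right]
      rw [h6]
      exact Submodule.sum_mem _ (fun i _ => Submodule.smul_mem _ _ (Submodule.subset_span ⟨i, rfl⟩))
  let I : Ideal (MvPolynomial τ k) :=
    (J p f (n + 1)).comap (rename j : MvPolynomial τ k →ₐ[k] MvPolynomial σ k)
  -- finiteness of the target
  have hfin : Module.Finite k (MvPolynomial τ k ⧸ I) := by
    have hfin' := finite_quot_J p f hf hind (n + 1)
    let U : (MvPolynomial τ k ⧸ I) →ₐ[k] (MvPolynomial σ k ⧸ J p f (n + 1)) :=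
      Ideal.quotientMapₐ (J p f (n + 1)) (rename j : MvPolynomial τ k →ₐ[k] MvPolynomial σ k) le_rfl
    have hU : Function.Injective U := Ideal.quotientMap_injective
    exact Module.Finite.of_injective U.toLinearMap hU
  have hdeg : ∀ A : MvPolynomial (Fin e) k, A ∈ restrictTotalDegree (Fin e) k n ↔
      ∀ d ∈ A.support, d.degree < n + 1 := by
    intro A
    rw [mem_restrictTotalDegree, totalDegree, Finset.sup_le_iff]
    refine forall₂_congr (fun d _ => ?_)
    rw [Nat.lt_succ_iff]
    rfl
  let T : restrictTotalDegree (Fin e) k n →ₗ[k] (MvPolynomial τ k ⧸ I) :=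
    ((Ideal.Quotient.mkₐ k I).toLinearMap ∘ₗ (aeval ξ').toLinearMap) ∘ₗ
      (restrictTotalDegree (Fin e) k n).subtype
  refine LinearMap.finrank_le_finrank_of_injective (f := T) ?_
  rw [← LinearMap.ker_eq_bot, LinearMap.ker_eq_bot']
  intro A hA
  apply Subtype.ext
  refine jets_indep hζ1 hξ1 h2 h3 (n + 1) A.1 ((hdeg A.1).1 A.2) ?_
  have h8 : aeval ξ' A.1 ∈ I := Ideal.Quotient.eq_zero_iff_mem.1 hA
  have h9 : (rename j : MvPolynomial τ k →ₐ[k] MvPolynomial σ k) (aeval ξ' A.1) = aeval ξ A.1 := by
    have : ((rename j : MvPolynomial τ k →ₐ[k] MvPolynomial σ k)).comp (aeval ξ') = aeval ξ := by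
      apply MvPolynomial.algHom_ext
      intro l
      simp [ξ]
    exact DFunLike.congr_fun this A.1
  rw [← h9]
  exact h8

section comap

variable {α β : Type*} [Fintype α] [DecidableEq α] [Fintype β] [DecidableEq β]

theorem rename_mem_mx_pow {τ : Type*} [Fintype τ] [DecidableEq τ] (j : τ → σ) (p : σ → k) (n : ℕ)
    {F : MvPolynomial τ k} (hF : F ∈ (mx (fun t => p (j t))) ^ n) :
    (rename j : MvPolynomial τ k →ₐ[k] MvPolynomial σ k) F ∈ (mx p) ^ n := by
  have h1 : (mx (fun t => p (j t))).map
      (rename j : MvPolynomial τ k →ₐ[k] MvPolynomial σ k).toRingHom ≤ mx p := by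
    rw [Ideal.map_le_iff_le_comap]
    intro G hG
    rw [Ideal.mem_comap, mem_mx]
    change eval p (rename j G) = 0
    rw [eval_rename]
    exact hG
  have h2 := Ideal.mem_map_of_mem (rename j : MvPolynomial τ k →ₐ[k] MvPolynomial σ k).toRingHom hF
  rw [Ideal.map_pow] at h2
  exact Ideal.pow_right_mono h1 n h2

/-- the renamed system is contained in the big one: the small jet ideal goes into the big one -/
theorem J_le_comap {c c' : ℕ} {τ : Type*} [Fintype τ] [DecidableEq τ] (j : τ → σ) (p : σ → k)
    (g : Fin c → MvPolynomial τ k) (f : Fin c' → MvPolynomial σ k)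
    (h : ∀ i, ∃ i', rename j (g i) = f i') (n : ℕ) :
    J (fun t => p (j t)) g n ≤
      (J p f n).comap (rename j : MvPolynomial τ k →ₐ[k] MvPolynomial σ k) := by
  refine sup_le ?_ ?_
  · rw [Ideal.span_le]
    rintro _ ⟨i, rfl⟩
    obtain ⟨i', hi'⟩ := h i
    change rename j (g i) ∈ J p f n
    rw [hi']
    exact span_le_J p f n (Ideal.subset_span ⟨i', rfl⟩)
  · intro F hF
    exact pow_le_J p f n (rename_mem_mx_pow j p n hF)

/-- general form of [COMAP]: `g` a system in the block `j`, contained in the big system `f` with the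
same dimension, the tangent space of `f` injects into the block: the traces of the jet ideals are
the jet ideals of `g` -/
theorem comap_J {c c' : ℕ} {τ : Type*} [Fintype τ] [DecidableEq τ] (j : τ → σ) (p : σ → k)
    (g : Fin c → MvPolynomial τ k) (f : Fin c' → MvPolynomial σ k)
    (h : ∀ i, ∃ i', rename j (g i) = f i')
    (hg : ∀ i, eval (fun t => p (j t)) (g i) = 0)
    (hgind : LinearIndependent k (fun i => grad (fun t => p (j t)) (g i)))
    (hf : ∀ i, eval p (f i) = 0) (hind : LinearIndependent k (fun i => grad p (f i)))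
    (hdim : Fintype.card σ - c' = Fintype.card τ - c)
    (hinj : ∀ v : σ → k, (∀ i, ∑ x, grad p (f i) x * v x = 0) → (∀ t, v (j t) = 0) → v = 0)
    (n : ℕ) :
    (J p f n).comap (rename j : MvPolynomial τ k →ₐ[k] MvPolynomial σ k)
      = J (fun t => p (j t)) g n := by
  rcases n with _ | n
  · rw [J_zero, J_zero, Ideal.comap_top]
  have hle := J_le_comap j p g f h (n + 1)
  have h1 := rjet j p f hf hind hinj n
  have h2 := finrank_quot_J (fun t => p (j t)) g hg hgind n
  rw [hdim, ← h2] at h1
  have hfin := finite_quot_J (fun t => p (j t)) g hg hgind (n + 1)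
  -- the surjection `k[τ]/J → k[τ]/comap`
  let U : (MvPolynomial τ k ⧸ J (fun t => p (j t)) g (n + 1)) →ₗ[k]
      (MvPolynomial τ k ⧸
        (J p f (n + 1)).comap (rename j : MvPolynomial τ k →ₐ[k] MvPolynomial σ k)) :=
    (Ideal.Quotient.factorₐ k hle).toLinearMap
  have hUs : Function.Surjective U := Ideal.Quotient.factor_surjective hle
  have hUi : Function.Injective U := by
    have h3 := LinearMap.finrank_le_finrank_of_surjective hUs
    have h4 : Module.finrank k (MvPolynomial τ k ⧸ J (fun t => p (j t)) g (n + 1)) =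
        Module.finrank k (MvPolynomial τ k ⧸
          (J p f (n + 1)).comap (rename j : MvPolynomial τ k →ₐ[k] MvPolynomial σ k)) :=
      le_antisymm h1 h3
    have : Module.Finite k (MvPolynomial τ k ⧸
        (J p f (n + 1)).comap (rename j : MvPolynomial τ k →ₐ[k] MvPolynomial σ k)) :=
      Module.Finite.of_surjective U hUs
    exact (LinearMap.injective_iff_surjective_of_finrank_eq_finrank h4).2 hUs
  refine le_antisymm ?_ hle
  intro F hF
  have h5 : U (Ideal.Quotient.mk _ F) = 0 := by
    change Ideal.Quotient.factor hle (Ideal.Quotient.mk _ F) = 0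
    rw [Ideal.Quotient.factor_mk]
    exact Ideal.Quotient.eq_zero_iff_mem.2 hF
  have h6 : (Ideal.Quotient.mk (J (fun t => p (j t)) g (n + 1)) F) = 0 :=
    hUi (by rw [h5, map_zero])
  exact Ideal.Quotient.eq_zero_iff_mem.1 h6

theorem comap_germ {c c' : ℕ} {τ : Type*} [Fintype τ] [DecidableEq τ] (j : τ → σ) (p : σ → k)
    (g : Fin c → MvPolynomial τ k) (f : Fin c' → MvPolynomial σ k)
    (h : ∀ i, ∃ i', rename j (g i) = f i')
    (hg : ∀ i, eval (fun t => p (j t)) (g i) = 0)
    (hgind : LinearIndependent k (fun i => grad (fun t => p (j t)) (g i)))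
    (hf : ∀ i, eval p (f i) = 0) (hind : LinearIndependent k (fun i => grad p (f i)))
    (hdim : Fintype.card σ - c' = Fintype.card τ - c)
    (hinj : ∀ v : σ → k, (∀ i, ∑ x, grad p (f i) x * v x = 0) → (∀ t, v (j t) = 0) → v = 0) :
    (germ p f).comap (rename j : MvPolynomial τ k →ₐ[k] MvPolynomial σ k)
      = germ (fun t => p (j t)) g := by
  unfold germ
  ext F
  rw [Ideal.mem_comap, Ideal.mem_iInf, Ideal.mem_iInf]
  refine forall_congr' (fun n => ?_)
  rw [← comap_J j p g f h hg hgind hf hind hdim hinj n]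
  rfl

end comap

end Vale.Agent.P054.T2.H494
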