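import Vale.Agent.P054.T2.H494.Comap
import Vale.Agent.P054.T2.H428.SecC

/-!
# P054 / T2, section C, [C2] for `S : Side n A W D σ v`
-/

set_option autoImplicit false
set_option linter.all false

namespace Vale.Agent.P054.T2.SecC

open MvPolynomial Finset Module
open Vale.Agent.P054.T2.H686 (mu meet Qf Crd leaf)
open Vale.Agent.P054.T2.H580 (Vw hilbF rkF IsFilt)
open Vale.Agent.P054.T2.H930 (germ mx grad J)
open Vale.Agent.P054.T2.H441 (hF)

variable {n : ℕ}

/-- the incidence polynomial `(r_0 - s_0) u_i - (r_{i+1} - s_{i+1})` of the hat leaf of `s` -/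
noncomputable def muP (s : ZZ n) (i : Fin n) : MvPolynomial (HL n) ℝ :=
  (X (Sum.inr (Sum.inl 0)) - C (s.1 0)) * X (Sum.inl i)
    - (X (Sum.inr (Sum.inl i.succ)) - C (s.1 i.succ))

theorem eval_muP {s r : ZZ n} (h : s.1 0 ≠ r.1 0) (i : Fin n) : eval (hx s r) (muP s i) = 0 := by
  have h' : s.1 0 - r.1 0 ≠ 0 := sub_ne_zero.2 h
  simp only [muP, hx, map_sub, map_mul, eval_X, eval_C, Sum.elim_inl, Sum.elim_inr, pt]
  unfold mu
  field_simp
  ring

namespace Side

variable {A : Finset (ZZ n × ZZ n)} {W D σ v : ℕ} (S : Side n A W D σ v)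

/-- **[COMAP]** (every `v`) -/
theorem comap_inl_P {e : ZZ n × ZZ n} (he : e ∈ A) :
    (S.P e).comap (rename (R := ℝ) (Sum.inl : Fin n → HL n)) = S.Pu e := by
  classical
  exact H494.comap_inl_germ (hx e.1 e.2) (S.f e.1) (S.F e.1) (S.hleft e.1) (S.hzero e he)
    (S.hindf e he) (S.hindr e he)

theorem comap_inl_J {e : ZZ n × ZZ n} (he : e ∈ A) (k : ℕ) :
    (J (hx e.1 e.2) (S.F e.1) k).comap (rename (R := ℝ) (Sum.inl : Fin n → HL n))
      = J (mu e.1 e.2) (S.f e.1) k := by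
  classical
  exact H494.comap_inl_J (hx e.1 e.2) (S.f e.1) (S.F e.1) (S.hleft e.1) (S.hzero e he)
    (S.hindf e he) (S.hindr e he) k

/-- the tangent space of the hat-leaf germ injects into the `r`-space -/
theorem tangent_inj {e : ZZ n × ZZ n} (he : e ∈ A) (hmu : ∀ i, muP e.1 i ∈ S.P e)
    (w : HL n → ℝ) (hw : ∀ i, ∑ x, grad (hx e.1 e.2) (S.F e.1 i) x * w x = 0)
    (hw0 : ∀ z : ZI n, w (Sum.inr z) = 0) : w = 0 := by
  classical
  have h1 : ∀ g ∈ Submodule.span ℝ (Set.range (fun i => grad (hx e.1 e.2) (S.F e.1 i))),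
      ∑ x, g x * w x = 0 := by
    intro g hg
    refine Submodule.span_induction (p := fun g _ => ∑ x, g x * w x = 0) ?_ ?_ ?_ ?_ hg
    · rintro _ ⟨i, rfl⟩; exact hw i
    · simp
    · intro x y _ _ hx hy
      simp only [Pi.add_apply, add_mul, Finset.sum_add_distrib, hx, hy, add_zero]
    · intro c x _ hx
      simp only [Pi.smul_apply, smul_eq_mul, mul_assoc, ← Finset.mul_sum, hx, mul_zero]
  funext x
  rcases x with i | z
  · have h2 := h1 _ (H930.grad_mem_of_mem_germ (S.hzero e he) (hmu i))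
    rw [Fintype.sum_sum_type] at h2
    have h3 : ∑ z : ZI n, grad (hx e.1 e.2) (muP e.1 i) (Sum.inr z) * w (Sum.inr z) = 0 :=
      Finset.sum_eq_zero (fun z _ => by rw [hw0 z, mul_zero])
    rw [h3, add_zero] at h2
    have h4 : ∀ l : Fin n, grad (hx e.1 e.2) (muP e.1 i) (Sum.inl l)
        = if l = i then e.2.1 0 - e.1.1 0 else 0 := by
      intro l
      simp only [grad, muP, map_sub, pderiv_mul, pderiv_X, pderiv_C, map_mul, map_add, eval_X,
        eval_C]
      by_cases hl : l = i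
      · subst hl
        simp [hx, pt]
      · have hl' : i ≠ l := fun h => hl h.symm
        simp [hl, hl']
    rw [Finset.sum_eq_single i] at h2
    · rw [h4, if_pos rfl] at h2
      rcases mul_eq_zero.1 h2 with h5 | h5
      · exact absurd (sub_eq_zero.1 h5).symm (S.hne e he)
      · exact h5
    · intro l _ hl
      rw [h4, if_neg hl, zero_mul]
    · intro h; exact absurd (Finset.mem_univ i) h
  · exact hw0 z

/-- **[RJET]**: the coordinates of `r` give all jets of the hat-leaf germ (dimension `σ + v`) -/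
theorem rjet {e : ZZ n × ZZ n} (he : e ∈ A) (hmu : ∀ i, muP e.1 i ∈ S.P e) (k : ℕ) :
    (k + (σ + v)).choose (σ + v) ≤ finrank ℝ (MvPolynomial (ZI n) ℝ ⧸
      (J (hx e.1 e.2) (S.F e.1) (k + 1)).comap
        (rename Sum.inr : MvPolynomial (ZI n) ℝ →ₐ[ℝ] MvPolynomial (HL n) ℝ)) := by
  classical
  have h := H494.rjet (σ := HL n) (Sum.inr : ZI n → HL n) (hx e.1 e.2) (S.F e.1) (S.hzero e he)
    (S.hind e he) (fun w hw hw0 => S.tangent_inj he hmu w hw hw0) k
  have hc : Fintype.card (HL n) - ((n - σ) + (2 * (n + 1) - v)) = σ + v := by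
    have h1 := S.hσ
    have h2 := S.hv
    simp only [HL, ZI, Fintype.card_sum, Fintype.card_fin]
    omega
  rw [hc] at h
  exact h

/-- the same in the form consumed by `H701.good_count`: `J` lies between `𝔪_r^{k+1}`, `P_r` -/
theorem rjet' {e : ZZ n × ZZ n} (he : e ∈ A) (hmu : ∀ i, muP e.1 i ∈ S.P e) (hv0 : v = 0) (k : ℕ) :
    ∃ I : Ideal (MvPolynomial (ZI n) ℝ), (mx (pt e.2)) ^ (k + 1) ≤ I ∧ S.Pr e ≤ I ∧
      (k + σ).choose σ ≤ finrank ℝ (MvPolynomial (ZI n) ℝ ⧸ I) := by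
  classical
  refine ⟨(J (hx e.1 e.2) (S.F e.1) (k + 1)).comap
        (rename Sum.inr : MvPolynomial (ZI n) ℝ →ₐ[ℝ] MvPolynomial (HL n) ℝ), ?_, ?_, ?_⟩
  · intro G hG
    exact H930.pow_le_J _ _ _ (H494.rename_mem_mx_pow (σ := HL n) Sum.inr (hx e.1 e.2) (k + 1) hG)
  · intro G hG
    exact H930.germ_le_J _ _ _ hG
  · have h := S.rjet he hmu k
    have h1 : σ + v = σ := by omega
    have h2 : (k + (σ + v)).choose (σ + v) = (k + σ).choose σ := by rw [h1]
    exact h2 ▸ h

end Side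

end Vale.Agent.P054.T2.SecC
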